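import Vale.Agent.P151.H982.VFd
import Vale.Agent.P151.GB.Base

/-!
P151 (B), step W3: mass transport (unimodularity) from weak polynomial growth, time reversal of
the random walk, and the final form of W3 for the structure `TG`.
-/

universe u v w

open Filter Topology

namespace Vale.Agent.P151.H982

open Vale.Agent.P151.GB Vale.Agent.P188.SG

variable {Γ : Type u} {V : Type v} [Group Γ] [MulAction Γ V]

theorem vg_of_tg (T : TG Γ V) : VG Γ T.nb T.o :=
  ⟨T.self_mem, T.symm, T.smul_mem, T.trans, T.conn⟩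

theorem ball_succ_mem (T : TG Γ V) {x y z : V} {n : ℕ} (h : y ∈ T.ball x n) (hz : z ∈ T.nb y) :
    z ∈ T.ball x (n + 1) := by
  classical
  unfold TG.ball
  exact Finset.mem_biUnion.2 ⟨y, h, hz⟩

theorem mem_ball_succ (T : TG Γ V) {x z : V} {n : ℕ} (h : z ∈ T.ball x (n + 1)) :
    ∃ y ∈ T.ball x n, z ∈ T.nb y := by
  classical
  unfold TG.ball at h
  exact Finset.mem_biUnion.1 h

theorem ball_zero_mem (T : TG Γ V) (x : V) : x ∈ T.ball x 0 := by
  unfold TG.ball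
  exact Finset.mem_singleton_self x

theorem ball_sub (T : TG Γ V) (x : V) (n : ℕ) : T.ball x n ⊆ T.ball x (n + 1) :=
  fun _ hy => ball_succ_mem T hy (T.self_mem _)

theorem ball_self_mem (T : TG Γ V) (x : V) (n : ℕ) : x ∈ T.ball x n := by
  induction n with
  | zero => exact ball_zero_mem T x
  | succ n ih => exact ball_sub T x n ih

theorem ball_card_pos (T : TG Γ V) (x : V) (n : ℕ) : 0 < (T.ball x n).card :=
  Finset.card_pos.2 ⟨x, ball_self_mem T x n⟩

/-- weak growth: some balls have small boundary -/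
theorem exists_small_bdry (T : TG Γ V) {D : ℕ} (hW : T.WG D) {ε : ℝ} (hε : 0 < ε) :
    ∃ r, ((T.ball T.o (r + 1)).card : ℝ) ≤ (1 + ε) * (T.ball T.o r).card := by
  by_contra hcon
  push Not at hcon
  have h1 : ∀ r : ℕ, (1 + ε) ^ r ≤ ((T.ball T.o r).card : ℝ) := by
    intro r
    induction r with
    | zero =>
      rw [pow_zero]
      exact_mod_cast ball_card_pos T T.o 0
    | succ r ih =>
      rw [pow_succ]
      have := hcon r
      nlinarith
  have h2 : Tendsto (fun n : ℕ => (n : ℝ) ^ D / (1 + ε) ^ n) atTop (𝓝 0) :=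
    tendsto_pow_const_div_const_pow_of_one_lt D (by linarith)
  have h3 : ∀ᶠ n : ℕ in atTop, (n : ℝ) ^ D / (1 + ε) ^ n < 1 :=
    h2.eventually (gt_mem_nhds one_pos)
  obtain ⟨n, hn1, hn2⟩ := (hW.and_eventually h3).exists
  rw [div_lt_one (by positivity)] at hn2
  have h4 : ((T.ball T.o n).card : ℝ) ≤ (n : ℝ) ^ D := by exact_mod_cast hn1
  have := h1 n
  linarith

section MT

variable {Θ : V → V → ℝ}

theorem inv_sum_out (T : TG Γ V) (hΘ : ∀ (g : Γ) x y, Θ (g • x) (g • y) = Θ x y) (x : V) :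
    ∑ z ∈ T.nb x, Θ x z = ∑ z ∈ T.nb T.o, Θ T.o z := by
  obtain ⟨g, rfl⟩ := T.trans x
  rw [sum_nb_smul (vg_of_tg T)]
  exact Finset.sum_congr rfl fun z _ => hΘ g _ _

theorem inv_sum_in (T : TG Γ V) (hΘ : ∀ (g : Γ) x y, Θ (g • x) (g • y) = Θ x y) (x : V) :
    ∑ z ∈ T.nb x, Θ z x = ∑ z ∈ T.nb T.o, Θ z T.o := by
  obtain ⟨g, rfl⟩ := T.trans x
  rw [sum_nb_smul (vg_of_tg T) g T.o (fun z => Θ z (g • T.o))]
  exact Finset.sum_congr rfl fun z _ => hΘ g _ _

theorem mt_le (T : TG Γ V) {D : ℕ} (hW : T.WG D)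
    (hΘ : ∀ (g : Γ) x y, Θ (g • x) (g • y) = Θ x y) (h0 : ∀ x, ∀ z ∈ T.nb x, 0 ≤ Θ x z) :
    ∑ z ∈ T.nb T.o, Θ T.o z ≤ ∑ z ∈ T.nb T.o, Θ z T.o := by
  classical
  set a := ∑ z ∈ T.nb T.o, Θ T.o z with ha
  set b := ∑ z ∈ T.nb T.o, Θ z T.o with hb
  have hb0 : 0 ≤ b := Finset.sum_nonneg fun z hz => h0 z _ (T.symm _ _ hz)
  have key : ∀ r, ((T.ball T.o r).card : ℝ) * a ≤ ((T.ball T.o (r + 1)).card : ℝ) * b := by
    intro r
    have e1 : ((T.ball T.o r).card : ℝ) * a = ∑ x ∈ T.ball T.o r, ∑ z ∈ T.nb x, Θ x z := by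
      rw [Finset.sum_congr rfl fun x _ => inv_sum_out T hΘ x, Finset.sum_const, nsmul_eq_mul]
    have e2 : ((T.ball T.o (r + 1)).card : ℝ) * b =
        ∑ z ∈ T.ball T.o (r + 1), ∑ x ∈ T.nb z, Θ x z := by
      rw [Finset.sum_congr rfl fun x _ => inv_sum_in T hΘ x, Finset.sum_const, nsmul_eq_mul]
    rw [e1, e2, Finset.sum_sigma', Finset.sum_sigma']
    have e3 : ∑ p ∈ (T.ball T.o r).sigma (fun x => T.nb x), Θ p.1 p.2 =
        ∑ p ∈ ((T.ball T.o r).sigma (fun x => T.nb x)).map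
          ⟨fun p : (_ : V) × V => (⟨p.2, p.1⟩ : (_ : V) × V), fun p q h => by
            rcases p with ⟨p1, p2⟩
            rcases q with ⟨q1, q2⟩
            simp only [Sigma.mk.injEq, heq_eq_eq] at h
            rw [h.1, h.2]⟩, Θ p.2 p.1 := by
      rw [Finset.sum_map]
      rfl
    rw [e3]
    refine Finset.sum_le_sum_of_subset_of_nonneg ?_ ?_
    · intro p hp
      rw [Finset.mem_map] at hp
      obtain ⟨q, hq, rfl⟩ := hp
      rw [Finset.mem_sigma] at hq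
      rw [Finset.mem_sigma]
      exact ⟨ball_succ_mem T hq.1 hq.2, T.symm _ _ hq.2⟩
    · intro p hp _
      rw [Finset.mem_sigma] at hp
      exact h0 _ _ (T.symm _ _ hp.2)
  refine le_of_forall_pos_le_add fun δ hδ => ?_
  obtain ⟨r, hr⟩ := exists_small_bdry T hW (ε := δ / (b + 1)) (by positivity)
  have h1 := key r
  have h2 : (0 : ℝ) < (T.ball T.o r).card := by exact_mod_cast ball_card_pos T T.o r
  have h3 : ((T.ball T.o r).card : ℝ) * a ≤ (T.ball T.o r).card * ((1 + δ / (b + 1)) * b) := by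
    calc ((T.ball T.o r).card : ℝ) * a ≤ ((T.ball T.o (r + 1)).card : ℝ) * b := h1
      _ ≤ ((1 + δ / (b + 1)) * (T.ball T.o r).card) * b := mul_le_mul_of_nonneg_right hr hb0
      _ = (T.ball T.o r).card * ((1 + δ / (b + 1)) * b) := by ring
  have h4 : a ≤ (1 + δ / (b + 1)) * b := le_of_mul_le_mul_left h3 h2
  have h5 : δ / (b + 1) * b ≤ δ := by
    rw [div_mul_eq_mul_div, div_le_iff₀ (by positivity)]
    nlinarith
  linarith

/-- one-step mass transport, nonnegative case -/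
theorem mt_nonneg (T : TG Γ V) {D : ℕ} (hW : T.WG D)
    (hΘ : ∀ (g : Γ) x y, Θ (g • x) (g • y) = Θ x y) (h0 : ∀ x, ∀ z ∈ T.nb x, 0 ≤ Θ x z) :
    ∑ z ∈ T.nb T.o, Θ T.o z = ∑ z ∈ T.nb T.o, Θ z T.o := by
  refine le_antisymm (mt_le T hW hΘ h0) ?_
  exact mt_le (Θ := fun x y => Θ y x) T hW (fun g x y => hΘ g y x)
    (fun x z hz => h0 z x (T.symm _ _ hz))

/-- one-step mass transport -/
theorem mt_step (T : TG Γ V) {D : ℕ} (hW : T.WG D)
    (hΘ : ∀ (g : Γ) x y, Θ (g • x) (g • y) = Θ x y) :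
    ∑ z ∈ T.nb T.o, Θ T.o z = ∑ z ∈ T.nb T.o, Θ z T.o := by
  set M : ℝ := ∑ z ∈ T.nb T.o, |Θ T.o z| with hM
  have hb : ∀ x, ∀ z ∈ T.nb x, |Θ x z| ≤ M := by
    intro x z hz
    obtain ⟨g, rfl⟩ := T.trans x
    have h1 : g⁻¹ • z ∈ T.nb T.o := by
      rw [← nb_smul (vg_of_tg T) g, smul_inv_smul]
      exact hz
    have h2 : Θ (g • T.o) z = Θ T.o (g⁻¹ • z) := by
      rw [← hΘ g T.o (g⁻¹ • z), smul_inv_smul]
    rw [h2]
    exact Finset.single_le_sum (f := fun z => |Θ T.o z|) (fun _ _ => abs_nonneg _) h1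
  have h := mt_nonneg (Θ := fun x y => Θ x y + M) T hW (fun g x y => by rw [hΘ])
    (fun x z hz => by
      have := (abs_le.1 (hb x z hz)).1
      linarith)
  rw [Finset.sum_add_distrib, Finset.sum_add_distrib] at h
  linarith

end MT

/-- time reversal -/
theorem timeRev (T : TG Γ V) {D : ℕ} (hW : T.WG D) : TimeRev Γ T.nb T.o := by
  have hV := vg_of_tg T
  intro n
  induction n with
  | zero =>
    intro Ψ _
    rfl
  | succ n ih =>
    intro Ψ hΨ
    -- first step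
    have e1 : Wk T.nb (n + 1) (fun p => Ψ T.o p) T.o =
        Wk T.nb n (fun p => av T.nb (fun z => Ψ T.o z) p) T.o := rfl
    have h1 := ih (fun x y => av T.nb (fun z => Ψ x z) y) (fun g x y => by
      rw [← av_smul_act hV]
      simp only [hΨ])
    rw [e1, h1]
    have e2 : Wk T.nb n (fun p => av T.nb (fun z => Ψ p z) T.o) T.o =
        ((T.nb T.o).card : ℝ)⁻¹ * ∑ z ∈ T.nb T.o, Wk T.nb n (fun p => Ψ p z) T.o := by
      unfold av
      rw [Wk_smul, Wk_sum]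
    have e3 : Wk T.nb (n + 1) (fun p => Ψ p T.o) T.o =
        ((T.nb T.o).card : ℝ)⁻¹ * ∑ z ∈ T.nb T.o, Wk T.nb n (fun p => Ψ p T.o) z := by
      rw [Wk_succ']
      rfl
    rw [e2, e3]
    congr 1
    refine mt_step (Θ := fun x z => Wk T.nb n (fun p => Ψ p z) x) T hW (fun g x y => ?_)
    rw [← Wk_act hV]
    simp only [hΨ]

/-- Balls are neighbourhoods on which equivariant maps are Lipschitz. -/
theorem ball_lip (T : TG Γ V) {E : Type w} [NormedAddCommGroup E] [InnerProductSpace ℝ E]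
    {π : Γ →* (E ≃ₗᵢ[ℝ] E)} {F : V → E} (hF : Equi π F) (r : ℕ) (p : V)
    (hp : p ∈ T.ball T.o r) : ‖F p - F T.o‖ ≤ (∑ z ∈ T.nb T.o, ‖F z - F T.o‖) * r := by
  have hb : ∀ x, ∀ z ∈ T.nb x, ‖F z - F x‖ ≤ ∑ z ∈ T.nb T.o, ‖F z - F T.o‖ := by
    intro x z hz
    obtain ⟨g, rfl⟩ := T.trans x
    have h1 : g⁻¹ • z ∈ T.nb T.o := by
      rw [← nb_smul (vg_of_tg T) g, smul_inv_smul]
      exact hz
    have h2 : ‖F z - F (g • T.o)‖ = ‖F (g⁻¹ • z) - F T.o‖ := by
      rw [← LinearIsometryEquiv.norm_map (π g) (F (g⁻¹ • z) - F T.o), ← hF, smul_inv_smul]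
    rw [h2]
    exact Finset.single_le_sum (f := fun z => ‖F z - F T.o‖) (fun _ _ => norm_nonneg _) h1
  induction r generalizing p with
  | zero =>
    unfold TG.ball at hp
    rw [Finset.mem_singleton] at hp
    rw [hp]
    simp
  | succ r ih =>
    obtain ⟨y, hy, hpy⟩ := mem_ball_succ T hp
    have h1 := ih y hy
    have h2 := hb y p hpy
    have h3 : F p - F T.o = (F p - F y) + (F y - F T.o) := (sub_add_sub_cancel _ _ _).symm
    rw [h3]
    refine (norm_add_le _ _).trans ?_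
    push_cast
    linarith

theorem avg_eq_av (T : TG Γ V) (f : V → ℝ) : T.avg f = av T.nb f := by
  funext x
  unfold TG.avg av TG.deg
  rw [card_nb (vg_of_tg T) x]

theorem E_eq_Wk (T : TG Γ V) (n : ℕ) (f : V → ℝ) : T.E n f = Wk T.nb n f T.o := by
  unfold TG.E Wk
  have : T.avg = av T.nb := funext fun f => avg_eq_av T f
  rw [this]

open Classical in
/-- The walk is cautious: with probability bounded below, it is in the ball of radius `c √n` at
infinitely many times `n`. -/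
def TGCautious (T : TG Γ V) : Prop :=
  ∀ c : ℝ, 0 < c → ∃ δ : ℝ, 0 < δ ∧ ∃ᶠ n : ℕ in atTop, ∃ r : ℕ, (r : ℝ) ≤ c * Real.sqrt n ∧
    δ ≤ T.E n (fun p => if p ∈ T.ball T.o r then 1 else 0)

/-- **W3.** From a nonconstant harmonic equivariant map of a transitive graph with weak
polynomial growth and cautious walk into a Hilbert space to a finite-dimensional one. -/
theorem exists_fd_harmonic_TG (T : TG Γ V) {D : ℕ} (hW : T.WG D) (hc : TGCautious T)
    {E : Type w} [NormedAddCommGroup E] [InnerProductSpace ℝ E] [CompleteSpace E]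
    (π : Γ →* (E ≃ₗᵢ[ℝ] E)) (F : V → E)
    (hF : ∀ (g : Γ) (x y : V), F (g • x) - F (g • y) = π g (F x - F y))
    (hH : ∀ x, ∑ y ∈ T.nb x, (F y - F x) = 0) (hne : ∃ x y, F x ≠ F y) :
    ∃ (W : Type w) (_ : NormedAddCommGroup W) (_ : InnerProductSpace ℝ W)
      (_ : FiniteDimensional ℝ W) (σ : Γ →* (W ≃ₗᵢ[ℝ] W)) (c : V → W),
      (∀ (g : Γ) (x : V), c (g • x) = c (g • T.o) + σ g (c x)) ∧
      ∑ y ∈ T.nb T.o, c y = 0 ∧ c T.o = 0 ∧ ∃ y ∈ T.nb T.o, c y ≠ 0 := by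
  classical
  have hc' : CautV T.nb T.o (fun r p => p ∈ T.ball T.o r) := by
    intro c h0
    obtain ⟨δ, hδ, hf⟩ := hc c h0
    refine ⟨δ, hδ, hf.mono fun n hn => ?_⟩
    obtain ⟨r, hr, h1⟩ := hn
    refine ⟨r, hr, ?_⟩
    rw [E_eq_Wk] at h1
    convert h1
  obtain ⟨W, i1, i2, i3, σ, c, h1, h2, h3, h4⟩ := exists_fd_harmonic_V (vg_of_tg T)
    (timeRev T hW) (fun r p => p ∈ T.ball T.o r) hc' hF hH (fun r p hp => ball_lip T hF r p hp)
    hne
  refine ⟨W, i1, i2, i3, σ, c, fun g x => ?_, ?_, h3, h4⟩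
  · have h5 := h1 g x T.o
    rw [h3, sub_zero] at h5
    rw [← h5]
    abel
  · have h5 := h2 T.o
    simp only [h3, sub_zero] at h5
    exact h5

end Vale.Agent.P151.H982
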