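import Vale.Agent.P151.H982.VWalk
import Vale.Agent.P188.SG.WeakMix

/-!
P151 (B), step W3: weak mixing of the increments of an equivariant map along the random walk on
the vertices of a transitive graph.
-/

universe u v w

open Filter Topology

namespace Vale.Agent.P151.H982

open Vale.Agent.P188.SG

variable {Γ : Type u} [Group Γ] {V : Type v} [MulAction Γ V] {nb : V → Finset V} {o : V}
variable {E : Type w} [NormedAddCommGroup E] [InnerProductSpace ℝ E]

/-- `F` is equivariant up to translations, with linear part `π`. -/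
def Equi (π : Γ →* (E ≃ₗᵢ[ℝ] E)) (F : V → E) : Prop :=
  ∀ (g : Γ) (x y : V), F (g • x) - F (g • y) = π g (F x - F y)

/-- the (bilinear) energy of `F` in the directions `a`, `b` at the vertex `p`. -/
noncomputable def en (nb : V → Finset V) (F : V → E) (a b : E) (p : V) : ℝ :=
  av nb (fun z => inner ℝ (F z - F p) a * inner ℝ (F z - F p) b) p

/-- the mean square of the increments at `p`. -/
noncomputable def sg (nb : V → Finset V) (F : V → E) (p : V) : ℝ :=
  av nb (fun z => ‖F z - F p‖ ^ 2) p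

theorem sg_eq {π : Γ →* (E ≃ₗᵢ[ℝ] E)} {F : V → E} (hV : VG Γ nb o) (hF : Equi π F) (p : V) :
    sg nb F p = sg nb F o := by
  obtain ⟨g, rfl⟩ := hV.trans p
  unfold sg
  rw [← av_smul_act hV]
  congr 1
  funext z
  rw [hF, LinearIsometryEquiv.norm_map]

omit [InnerProductSpace ℝ E] in
theorem sg_nonneg (F : V → E) (p : V) : 0 ≤ sg nb F p := av_nonneg (fun _ => sq_nonneg _) p

theorem en_comm (F : V → E) (a b : E) (p : V) : en nb F a b p = en nb F b a p := by
  unfold en
  simp only [mul_comm (inner ℝ _ a)]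

theorem en_add (F : V → E) (a b c : E) (p : V) :
    en nb F (a + b) c p = en nb F a c p + en nb F b c p := by
  unfold en
  have h := congrFun (av_add (nb := nb) (fun z => inner ℝ (F z - F p) a * inner ℝ (F z - F p) c)
    (fun z => inner ℝ (F z - F p) b * inner ℝ (F z - F p) c)) p
  rw [← h]
  congr 1
  funext z
  rw [inner_add_right]
  ring

theorem en_smul (F : V → E) (t : ℝ) (a c : E) (p : V) :
    en nb F (t • a) c p = t * en nb F a c p := by
  unfold en
  have h := congrFun (av_smul (nb := nb) t (fun z => inner ℝ (F z - F p) a *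
    inner ℝ (F z - F p) c)) p
  rw [← h]
  congr 1
  funext z
  rw [real_inner_smul_right]
  ring

theorem en_self_nonneg (F : V → E) (a : E) (p : V) : 0 ≤ en nb F a a p :=
  av_nonneg (fun _ => mul_self_nonneg _) p

theorem en_abs {π : Γ →* (E ≃ₗᵢ[ℝ] E)} {F : V → E} (hV : VG Γ nb o) (hF : Equi π F) (a b : E)
    (p : V) : |en nb F a b p| ≤ sg nb F o * ‖a‖ * ‖b‖ := by
  rw [← sg_eq hV hF p]
  have h : ∀ z, |inner ℝ (F z - F p) a * inner ℝ (F z - F p) b| ≤
      ‖a‖ * ‖b‖ * ‖F z - F p‖ ^ 2 := by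
    intro z
    rw [abs_mul]
    calc |inner ℝ (F z - F p) a| * |inner ℝ (F z - F p) b| ≤
          (‖F z - F p‖ * ‖a‖) * (‖F z - F p‖ * ‖b‖) :=
          mul_le_mul (abs_real_inner_le_norm _ _) (abs_real_inner_le_norm _ _) (abs_nonneg _)
            (by positivity)
      _ = ‖a‖ * ‖b‖ * ‖F z - F p‖ ^ 2 := by ring
  have h2 := congrFun (av_smul (nb := nb) (‖a‖ * ‖b‖) (fun z => ‖F z - F p‖ ^ 2)) p
  have h3 : sg nb F p * ‖a‖ * ‖b‖ = av nb (fun z => ‖a‖ * ‖b‖ * ‖F z - F p‖ ^ 2) p := by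
    rw [h2]
    unfold sg
    ring
  rw [h3, abs_le]
  constructor
  · have h4 := av_mono (nb := nb) (f := fun z => -(‖a‖ * ‖b‖ * ‖F z - F p‖ ^ 2))
      (g := fun z => inner ℝ (F z - F p) a * inner ℝ (F z - F p) b)
      (fun z => (abs_le.mp (h z)).1) p
    have h5 := congrFun (av_smul (nb := nb) (-1) (fun z => ‖a‖ * ‖b‖ * ‖F z - F p‖ ^ 2)) p
    simp only [neg_mul, one_mul] at h5
    rw [h5] at h4
    exact h4
  · exact av_mono (fun z => (abs_le.mp (h z)).2) p

theorem en_trace {π : Γ →* (E ≃ₗᵢ[ℝ] E)} {F : V → E} (hV : VG Γ nb o) (hF : Equi π F) (m : ℕ)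
    (e : Fin m → E) (he : Orthonormal ℝ e) (p : V) :
    ∑ i, en nb F (e i) (e i) p ≤ sg nb F o := by
  rw [← sg_eq hV hF p]
  have h1 : ∑ i, en nb F (e i) (e i) p =
      av nb (fun z => ∑ i, inner ℝ (F z - F p) (e i) * inner ℝ (F z - F p) (e i)) p := by
    unfold en av
    rw [← Finset.mul_sum, Finset.sum_comm]
  rw [h1]
  refine av_mono (fun z => ?_) p
  have h1 := Orthonormal.sum_inner_products_le (F z - F p) he (s := Finset.univ)
  refine le_trans (le_of_eq ?_) h1
  refine Finset.sum_congr rfl (fun i _ => ?_)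
  rw [Real.norm_eq_abs, sq_abs, real_inner_comm (e i) (F z - F p)]
  ring

theorem en_act {π : Γ →* (E ≃ₗᵢ[ℝ] E)} {F : V → E} (hV : VG Γ nb o) (hF : Equi π F) (g : Γ)
    (a b : E) (p : V) : en nb F a b (g • p) = en nb F ((π g)⁻¹ a) ((π g)⁻¹ b) p := by
  have e2 : ∀ (z : V) (a : E), inner ℝ (F (g • z) - F (g • p)) a =
      inner ℝ (F z - F p) ((π g)⁻¹ a) := by
    intro z a
    rw [hF, ← LinearIsometryEquiv.inner_map_map (π g) (F z - F p) ((π g)⁻¹ a)]
    congr 1
    show a = (π g * (π g)⁻¹) a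
    rw [mul_inv_cancel]
    rfl
  unfold en
  rw [← av_smul_act hV]
  simp only [e2]

/-- the averaged form `B_n` for the walk started at `x` -/
noncomputable def mB (nb : V → Finset V) (F : V → E) (n : ℕ) (x : V) (a b : E) : ℝ :=
  (n : ℝ)⁻¹ * ∑ j ∈ Finset.range n, Wk nb j (en nb F a b) x

theorem mB_comm (F : V → E) (n : ℕ) (x : V) (a b : E) : mB nb F n x a b = mB nb F n x b a := by
  unfold mB
  have : en nb F a b = en nb F b a := funext fun p => en_comm F a b p
  rw [this]

theorem mB_add (F : V → E) (n : ℕ) (x : V) (a b c : E) :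
    mB nb F n x (a + b) c = mB nb F n x a c + mB nb F n x b c := by
  unfold mB
  rw [← mul_add, ← Finset.sum_add_distrib]
  congr 1
  refine Finset.sum_congr rfl (fun j _ => ?_)
  rw [← Wk_add]
  congr 1
  funext p
  exact en_add F a b c p

theorem mB_smul (F : V → E) (n : ℕ) (x : V) (t : ℝ) (a c : E) :
    mB nb F n x (t • a) c = t * mB nb F n x a c := by
  unfold mB
  rw [mul_left_comm t]
  congr 1
  rw [Finset.mul_sum]
  refine Finset.sum_congr rfl (fun j _ => ?_)
  rw [← Wk_smul]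
  congr 1
  funext p
  exact en_smul F t a c p

theorem mB_abs {π : Γ →* (E ≃ₗᵢ[ℝ] E)} {F : V → E} (hV : VG Γ nb o) (hF : Equi π F) (n : ℕ)
    (x : V) (a b : E) : |mB nb F n x a b| ≤ sg nb F o * ‖a‖ * ‖b‖ := by
  have hb : ∀ j, |Wk nb j (en nb F a b) x| ≤ sg nb F o * ‖a‖ * ‖b‖ := fun j =>
    Wk_abs_le hV.self j (en_abs hV hF a b) x
  have h0 : 0 ≤ sg nb F o * ‖a‖ * ‖b‖ := (abs_nonneg _).trans (hb 0)
  unfold mB
  rw [abs_le]
  constructor
  · have := weakMix_avg_le n (fun j => -Wk nb j (en nb F a b) x) _ h0 (fun j => by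
        have := neg_abs_le (Wk nb j (en nb F a b) x)
        have := hb j
        linarith)
    rw [Finset.sum_neg_distrib, mul_neg] at this
    linarith
  · exact weakMix_avg_le n _ _ h0 (fun j => (le_abs_self _).trans (hb j))

theorem mB_nonneg (F : V → E) (n : ℕ) (x : V) (a : E) : 0 ≤ mB nb F n x a a := by
  unfold mB
  refine mul_nonneg (by positivity) (Finset.sum_nonneg (fun j _ => ?_))
  exact Wk_nonneg j (fun p => en_self_nonneg F a p) x

theorem mB_trace {π : Γ →* (E ≃ₗᵢ[ℝ] E)} {F : V → E} (hV : VG Γ nb o) (hF : Equi π F) (n : ℕ)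
    (x : V) (m : ℕ) (e : Fin m → E) (he : Orthonormal ℝ e) :
    ∑ i, mB nb F n x (e i) (e i) ≤ sg nb F o := by
  unfold mB
  rw [← Finset.mul_sum, Finset.sum_comm]
  refine weakMix_avg_le n _ _ (sg_nonneg F o) (fun j => ?_)
  rw [← Wk_sum, ← Wk_const (nb := nb) hV.self j (sg nb F o) x]
  exact Wk_mono j (fun p => en_trace hV hF m e he p) x

theorem mB_act {π : Γ →* (E ≃ₗᵢ[ℝ] E)} {F : V → E} (hV : VG Γ nb o) (hF : Equi π F) (n : ℕ)
    (g : Γ) (x : V) (a b : E) :
    mB nb F n (g • x) a b = mB nb F n x ((π g)⁻¹ a) ((π g)⁻¹ b) := by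
  unfold mB
  congr 1
  refine Finset.sum_congr rfl (fun j _ => ?_)
  rw [← Wk_act hV]
  congr 1
  funext p
  exact en_act hV hF g a b p

/-- stationarity -/
theorem mB_stat {π : Γ →* (E ≃ₗᵢ[ℝ] E)} {F : V → E} (hV : VG Γ nb o) (hF : Equi π F) (x : V)
    (a : E) :
    Tendsto (fun n => av nb (fun y => mB nb F n y a a) x - mB nb F n x a a) atTop (𝓝 0) := by
  set M : ℝ := sg nb F o * ‖a‖ * ‖a‖ with hM
  have hb : ∀ j, |Wk nb j (en nb F a a) x| ≤ M := fun j =>
    Wk_abs_le hV.self j (en_abs hV hF a a) x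
  have h0 : 0 ≤ M := (abs_nonneg _).trans (hb 0)
  have hkey : ∀ n : ℕ, av nb (fun y => mB nb F n y a a) x - mB nb F n x a a =
      (n : ℝ)⁻¹ * (Wk nb n (en nb F a a) x - Wk nb 0 (en nb F a a) x) := by
    intro n
    have e1 : av nb (fun y => mB nb F n y a a) x =
        (n : ℝ)⁻¹ * ∑ j ∈ Finset.range n, Wk nb (j + 1) (en nb F a a) x := by
      unfold mB
      rw [av_smul]
      have e2 : ∀ j ∈ Finset.range n, Wk nb (j + 1) (en nb F a a) x =
          av nb (Wk nb j (en nb F a a)) x := fun j _ => Wk_succ' j _ x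
      rw [Finset.sum_congr rfl e2]
      unfold av
      rw [← Finset.mul_sum, Finset.sum_comm]
    rw [e1]
    unfold mB
    rw [← mul_sub, ← Finset.sum_sub_distrib,
      Finset.sum_range_sub (fun j => Wk nb j (en nb F a a) x)]
  simp only [hkey]
  refine squeeze_zero_norm (a := fun n : ℕ => (n : ℝ)⁻¹ * (2 * M)) (fun n => ?_) ?_
  · rw [norm_mul, Real.norm_eq_abs, Real.norm_eq_abs, abs_of_nonneg (by positivity)]
    refine mul_le_mul_of_nonneg_left ?_ (by positivity)
    have h1 := hb n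
    have h2 := hb 0
    have h3 := abs_sub (Wk nb n (en nb F a a) x) (Wk nb 0 (en nb F a a) x)
    linarith
  · have := (tendsto_inv_atTop_nhds_zero_nat (𝕜 := ℝ)).mul_const (2 * M)
    simpa using this

/-- All increments of `F` are orthogonal to the finite-dimensional invariant subspaces. -/
def FPerp (π : Γ →* (E ≃ₗᵢ[ℝ] E)) (F : V → E) : Prop :=
  ∀ W : Submodule ℝ E, FiniteDimensional ℝ W → Inv π W → ∀ w ∈ W, ∀ x y : V,
    inner ℝ w (F x - F y) = 0

variable [CompleteSpace E]

theorem weak_mixing_V (hV : VG Γ nb o) {π : Γ →* (E ≃ₗᵢ[ℝ] E)} {F : V → E} (hF : Equi π F)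
    (hu : FPerp π F) (v : E) :
    Tendsto (fun n : ℕ => mB nb F n o v v) atTop (𝓝 0) := by
  by_contra hcon
  rw [Metric.tendsto_nhds] at hcon
  push Not at hcon
  obtain ⟨ε, hε, hfr⟩ := hcon
  rw [frequently_iff_neBot] at hfr
  set U : Ultrafilter ℕ := Ultrafilter.of (atTop ⊓ 𝓟 {n | ε ≤ dist (mB nb F n o v v) 0}) with hU
  have hUle : (U : Filter ℕ) ≤ atTop ⊓ 𝓟 {n | ε ≤ dist (mB nb F n o v v) 0} :=
    Ultrafilter.of_le _
  have hUtop : (U : Filter ℕ) ≤ atTop := hUle.trans inf_le_left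
  have hUε : ∀ᶠ n in (U : Filter ℕ), ε ≤ mB nb F n o v v := by
    have : ∀ᶠ n in (U : Filter ℕ), ε ≤ dist (mB nb F n o v v) 0 :=
      hUle.trans inf_le_right (mem_principal_self _)
    filter_upwards [this] with n hn
    rwa [Real.dist_eq, sub_zero, abs_of_nonneg (mB_nonneg F n o v)] at hn
  have hlim : ∀ x y : E, ∃ l, Tendsto (fun n => mB nb F n o x y) U (𝓝 l) := fun x y =>
    weakMix_lim U _ _ (fun n => mB_abs hV hF n o x y)
  choose B hB using hlim
  have hadd : ∀ x y z, B (x + y) z = B x z + B y z := fun x y z => by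
    refine tendsto_nhds_unique (hB (x + y) z) ?_
    simp only [mB_add]
    exact (hB x z).add (hB y z)
  have hsmul : ∀ (a : ℝ) x z, B (a • x) z = a * B x z := fun a x z => by
    refine tendsto_nhds_unique (hB (a • x) z) ?_
    simp only [mB_smul]
    exact (hB x z).const_mul a
  have hcomm : ∀ x y, B x y = B y x := fun x y => by
    refine tendsto_nhds_unique (hB x y) ?_
    simp only [mB_comm F _ o x y]
    exact hB y x
  have hBabs : ∀ x y, |B x y| ≤ sg nb F o * ‖x‖ * ‖y‖ := fun x y =>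
    le_of_tendsto (hB x y).abs (Eventually.of_forall (fun n => mB_abs hV hF n o x y))
  obtain ⟨T, hT⟩ := weakMix_op B hadd hsmul (fun x y z => by
      rw [hcomm x, hadd, hcomm y, hcomm z]) (fun a x z => by rw [hcomm x, hsmul, hcomm z])
      (sg nb F o) (sg_nonneg F o) hBabs
  have hpos : ∀ x, 0 ≤ B x x := fun x =>
    ge_of_tendsto (hB x x) (Eventually.of_forall (fun n => mB_nonneg F n o x))
  have htr : ∀ (m : ℕ) (e : Fin m → E), Orthonormal ℝ e →
      ∑ i, inner ℝ (T (e i)) (e i) ≤ sg nb F o := by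
    intro m e he
    simp only [hT]
    have h1 : Tendsto (fun n => ∑ i, mB nb F n o (e i) (e i)) U (𝓝 (∑ i, B (e i) (e i))) :=
      tendsto_finsetSum _ (fun i _ => hB (e i) (e i))
    exact le_of_tendsto h1 (Eventually.of_forall (fun n => mB_trace hV hF n o m e he))
  have hvv : ε ≤ B v v := ge_of_tendsto (hB v v) hUε
  have hT0 : T ≠ 0 := by
    intro h0
    have := hT v v
    rw [h0, zero_apply, inner_zero_left] at this
    linarith
  obtain ⟨lam, W, hlam, hW, hW0, hle, hiff⟩ := top_eigenspace T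
    (fun x y => by rw [hT, real_inner_comm, hT, hcomm]) (fun x => by rw [hT]; exact hpos x)
    (sg nb F o) htr hT0
  -- for every vertex choose a group element
  choose k hk using hV.trans
  have hlim2 : ∀ (g : Γ) (x : E), Tendsto (fun n => mB nb F n (g • o) x x) U
      (𝓝 (B ((π g)⁻¹ x) ((π g)⁻¹ x))) := by
    intro g x
    simp only [mB_act hV hF]
    exact hB _ _
  have hstat : ∀ x, av nb (fun y => B ((π (k y))⁻¹ x) ((π (k y))⁻¹ x)) o = B x x := by
    intro x
    have h1 : Tendsto (fun n => av nb (fun y => mB nb F n y x x) o - mB nb F n o x x) U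
        (𝓝 (av nb (fun y => B ((π (k y))⁻¹ x) ((π (k y))⁻¹ x)) o - B x x)) := by
      refine Tendsto.sub ?_ (hB x x)
      unfold av
      refine (tendsto_finsetSum _ (fun s _ => ?_)).const_mul _
      have h2 := hlim2 (k s) x
      rwa [hk s] at h2
    have h2 := tendsto_nhds_unique h1 ((mB_stat hV hF o x).mono_left hUtop)
    linarith
  have hcard : (0 : ℝ) < (nb o).card := card_pos hV o
  have hinv0 : ∀ y ∈ nb o, ∀ x ∈ W, (π (k y))⁻¹ x ∈ W := by
    intro y hy x hx
    have h1 : B x x = lam * ‖x‖ ^ 2 := by rw [← hT]; exact (hiff x).2 hx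
    have h2 : ∀ t ∈ nb o, B ((π (k t))⁻¹ x) ((π (k t))⁻¹ x) ≤ lam * ‖x‖ ^ 2 := by
      intro t _
      have := hle ((π (k t))⁻¹ x)
      rw [hT, LinearIsometryEquiv.norm_map] at this
      exact this
    have h3 : ∑ t ∈ nb o, B ((π (k t))⁻¹ x) ((π (k t))⁻¹ x) = ∑ _t ∈ nb o, lam * ‖x‖ ^ 2 := by
      have h4 := hstat x
      unfold av at h4
      rw [h1] at h4
      rw [Finset.sum_const, nsmul_eq_mul]
      field_simp at h4
      linarith
    have h5 := (Finset.sum_eq_sum_iff_of_le h2).1 h3 y hy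
    rw [← hiff, hT, LinearIsometryEquiv.norm_map]
    exact h5
  -- every element moving `o` to a neighbour
  have hinv1 : ∀ g : Γ, g • o ∈ nb o → ∀ x ∈ W, (π g)⁻¹ x ∈ W := by
    intro g hg x hx
    have h1 := hinv0 _ hg x hx
    rw [← hiff, hT, LinearIsometryEquiv.norm_map] at h1 ⊢
    rw [← h1]
    have h2 := hlim2 g x
    have h3 := hlim2 (k (g • o)) x
    rw [hk (g • o)] at h3
    exact tendsto_nhds_unique h2 h3
  have hsym : ∀ g : Γ, g • o ∈ nb o → g⁻¹ • o ∈ nb o := by
    intro g hg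
    rw [← nb_smul hV g, smul_inv_smul]
    exact hV.symm _ _ hg
  have hinv2 : ∀ g : Γ, g • o ∈ nb o → ∀ x ∈ W, π g x ∈ W := by
    intro g hg x hx
    have := hinv1 g⁻¹ (hsym g hg) x hx
    rwa [map_inv, inv_inv] at this
  have hInv : Inv π W := by
    intro g
    have hg : g ∈ Subgroup.closure {g : Γ | g • o ∈ nb o} := by rw [gen_nb hV]; trivial
    induction hg using Subgroup.closure_induction'' with
    | mem s hs => exact hinv2 s hs
    | inv_mem s hs =>
      intro x hx
      rw [map_inv]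
      exact hinv1 s hs x hx
    | one =>
      intro x hx
      rw [map_one]
      exact hx
    | mul a b _ _ ha hb =>
      intro x hx
      rw [map_mul]
      exact ha _ (hb x hx)
  obtain ⟨x, hx, hx0⟩ := Submodule.exists_mem_ne_zero_of_ne_bot hW0
  have h1 : B x x = 0 := by
    have h : en nb F x x = fun _ => (0 : ℝ) := by
      funext p
      unfold en
      have h2 : (fun z => inner ℝ (F z - F p) x * inner ℝ (F z - F p) x) = fun _ : V => (0 : ℝ) := by
        funext z
        rw [real_inner_comm, hu W hW hInv x hx z p, mul_zero]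
      rw [h2, av_const hV.self]
    have : ∀ n, mB nb F n o x x = 0 := by
      intro n
      unfold mB
      rw [h]
      simp only [Wk_null, Finset.sum_const_zero, mul_zero]
    refine tendsto_nhds_unique (hB x x) ?_
    simp only [this]
    exact tendsto_const_nhds
  have h2 : B x x = lam * ‖x‖ ^ 2 := by rw [← hT]; exact (hiff x).2 hx
  have h3 : 0 < ‖x‖ := norm_pos_iff.2 hx0
  have h4 : 0 < lam * ‖x‖ ^ 2 := by positivity
  linarith

end Vale.Agent.P151.H982
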