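import Vale.Agent.P151.H982.VMix
import Vale.Agent.P188.SG.EO

/-!
P151 (B), step W3: the Erschler–Ozawa argument on the vertices of a transitive graph.  For a
cautious walk, a harmonic equivariant map all of whose increments are orthogonal to the
finite-dimensional invariant subspaces is constant.
-/

universe u v w

open Filter Topology

namespace Vale.Agent.P151.H982

open Vale.Agent.P188.SG

variable {Γ : Type u} [Group Γ] {V : Type v} [MulAction Γ V] {nb : V → Finset V} {o : V}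
variable {E : Type w} [NormedAddCommGroup E] [InnerProductSpace ℝ E]

/-- Harmonic maps. -/
def Harm (nb : V → Finset V) (F : V → E) : Prop := ∀ x, ∑ y ∈ nb x, (F y - F x) = 0

/-- The walk is reversible in law, up to the group. -/
def TimeRev (Γ : Type u) [Group Γ] {V : Type v} [MulAction Γ V] (nb : V → Finset V) (o : V) :
    Prop :=
  ∀ (n : ℕ) (Ψ : V → V → ℝ), (∀ (g : Γ) (x y : V), Ψ (g • x) (g • y) = Ψ x y) →
    Wk nb n (fun p => Ψ o p) o = Wk nb n (fun p => Ψ p o) o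

/-- Cautious walks, with respect to a family of neighbourhoods of the base point. -/
def CautV (nb : V → Finset V) (o : V) (Near : ℕ → V → Prop) [∀ r p, Decidable (Near r p)] :
    Prop :=
  ∀ c : ℝ, 0 < c → ∃ δ : ℝ, 0 < δ ∧ ∃ᶠ n : ℕ in atTop, ∃ r : ℕ, (r : ℝ) ≤ c * Real.sqrt n ∧
    δ ≤ Wk nb n (fun p => if Near r p then 1 else 0) o

/-- the variance identity -/
theorem av_var (hS : ∀ x, x ∈ nb x) (p : V) (A : ℝ) (d : V → ℝ) (hd : ∑ z ∈ nb p, d z = 0) :
    av nb (fun z => (A + d z) ^ 2) p = A ^ 2 + av nb (fun z => d z ^ 2) p :=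
  EO_var ⟨p, hS p⟩ A d hd

theorem harm_inner {F : V → E} (hH : Harm nb F) (p : V) (v : E) :
    ∑ z ∈ nb p, inner ℝ (F z - F p) v = 0 := by
  rw [← sum_inner, hH, inner_zero_left]

theorem harm_inner' {F : V → E} (hH : Harm nb F) (p : V) (v : E) :
    ∑ z ∈ nb p, inner ℝ v (F z - F p) = 0 := by
  rw [← inner_sum, hH, inner_zero_right]

/-- second moments in the direction `v`. -/
noncomputable def qV (nb : V → Finset V) (F : V → E) (o : V) (n : ℕ) (v : E) : ℝ :=
  Wk nb n (fun p => (inner ℝ (F p - F o) v) ^ 2) o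

theorem qV_succ (hV : VG Γ nb o) {F : V → E} (hH : Harm nb F) (n : ℕ) (v : E) :
    qV nb F o (n + 1) v = qV nb F o n v + Wk nb n (en nb F v v) o := by
  have h : av nb (fun p => (inner ℝ (F p - F o) v) ^ 2) = fun p =>
      (inner ℝ (F p - F o) v) ^ 2 + en nb F v v p := by
    funext p
    have h1 : (fun z => (inner ℝ (F z - F o) v) ^ 2) =
        fun z => (inner ℝ (F p - F o) v + inner ℝ (F z - F p) v) ^ 2 := by
      funext z
      rw [← inner_add_left, sub_add_sub_cancel']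
    rw [h1, av_var hV.self p _ _ (harm_inner hH p v)]
    unfold en
    simp only [sq]
  unfold qV
  rw [Wk_succ, h, Wk_add]

theorem qV_mono (hV : VG Γ nb o) {F : V → E} (hH : Harm nb F) (n : ℕ) (v : E) :
    qV nb F o n v ≤ qV nb F o (n + 1) v := by
  rw [qV_succ hV hH]
  have h : 0 ≤ Wk nb n (en nb F v v) o := Wk_nonneg n (fun p => en_self_nonneg F v p) o
  linarith

theorem qV_eq (hV : VG Γ nb o) {F : V → E} (hH : Harm nb F) (n : ℕ) (v : E) :
    (n : ℝ)⁻¹ * qV nb F o n v = mB nb F n o v v := by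
  have h1 : qV nb F o n v = ∑ j ∈ Finset.range n, Wk nb j (en nb F v v) o := by
    induction n with
    | zero =>
      unfold qV
      rw [Wk_zero]
      simp
    | succ n ih => rw [qV_succ hV hH, ih, Finset.sum_range_succ]
  rw [h1]
  rfl

/-- the error term in the recursion for the fourth moment -/
noncomputable def rV (nb : V → Finset V) (F : V → E) (o : V) (n : ℕ) : ℝ :=
  av nb (fun z => 8 * qV nb F o n (F z - F o)) o

/-- the constant in the recursion for the fourth moment -/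
noncomputable def CV (nb : V → Finset V) (F : V → E) (p : V) : ℝ :=
  av nb (fun z => 2 * (‖F z - F p‖ ^ 2 - sg nb F p) ^ 2) p

theorem rV_mono (hV : VG Γ nb o) {F : V → E} (hH : Harm nb F) (n : ℕ) :
    rV nb F o n ≤ rV nb F o (n + 1) := by
  unfold rV
  refine av_mono (fun z => ?_) o
  exact mul_le_mul_of_nonneg_left (qV_mono hV hH n _) (by norm_num)

theorem rV_lim [CompleteSpace E] (hV : VG Γ nb o) {π : Γ →* (E ≃ₗᵢ[ℝ] E)} {F : V → E}
    (hF : Equi π F) (hH : Harm nb F) (hu : FPerp π F) :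
    Tendsto (fun n : ℕ => (n : ℝ)⁻¹ * rV nb F o n) atTop (𝓝 0) := by
  have h2 : (fun n : ℕ => (n : ℝ)⁻¹ * rV nb F o n) = fun n : ℕ =>
      ((nb o).card : ℝ)⁻¹ * ∑ z ∈ nb o, (8 * mB nb F n o (F z - F o) (F z - F o)) := by
    funext n
    unfold rV av
    simp only [← qV_eq hV hH]
    rw [mul_left_comm, Finset.mul_sum]
    congr 1
    exact Finset.sum_congr rfl fun s _ => by ring
  rw [h2]
  have h3 := tendsto_finsetSum (nb o)
    (fun z (_ : z ∈ nb o) => (weak_mixing_V hV hF hu (F z - F o)).const_mul 8)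
  have h4 := h3.const_mul ((nb o).card : ℝ)⁻¹
  simpa using h4

theorem CV_eq (hV : VG Γ nb o) {π : Γ →* (E ≃ₗᵢ[ℝ] E)} {F : V → E} (hF : Equi π F) (p : V) :
    CV nb F p = CV nb F o := by
  obtain ⟨g, rfl⟩ := hV.trans p
  unfold CV
  rw [← av_smul_act hV]
  congr 1
  funext z
  rw [hF, LinearIsometryEquiv.norm_map, sg_eq hV hF (g • o)]

/-- the cross term -/
noncomputable def crV (nb : V → Finset V) (F : V → E) (x p : V) : ℝ :=
  av nb (fun z => (inner ℝ (F p - F x) (F z - F p)) ^ 2) p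

theorem crV_act (hV : VG Γ nb o) {π : Γ →* (E ≃ₗᵢ[ℝ] E)} {F : V → E} (hF : Equi π F) (g : Γ)
    (x p : V) : crV nb F (g • x) (g • p) = crV nb F x p := by
  unfold crV
  rw [← av_smul_act hV]
  congr 1
  funext z
  rw [hF, hF, LinearIsometryEquiv.inner_map_map]

theorem Wk_crV (hV : VG Γ nb o) {π : Γ →* (E ≃ₗᵢ[ℝ] E)} {F : V → E} (hF : Equi π F)
    (hT : TimeRev Γ nb o) (n : ℕ) : 8 * Wk nb n (fun p => crV nb F o p) o = rV nb F o n := by
  rw [hT n (crV nb F) (crV_act hV hF)]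
  unfold rV
  have h1 : (fun p => crV nb F p o) = fun p => ((nb o).card : ℝ)⁻¹ * ∑ z ∈ nb o,
      (inner ℝ (F p - F o) (F z - F o)) ^ 2 := by
    funext p
    unfold crV av
    congr 1
    refine Finset.sum_congr rfl fun z _ => ?_
    show (inner ℝ (F o - F p) (F z - F o)) ^ 2 = (inner ℝ (F p - F o) (F z - F o)) ^ 2
    rw [← neg_sub (F p) (F o), inner_neg_left, neg_sq]
  rw [h1, Wk_smul, Wk_sum]
  unfold av qV
  rw [← Finset.mul_sum]
  ring

theorem MV_succ (hV : VG Γ nb o) {π : Γ →* (E ≃ₗᵢ[ℝ] E)} {F : V → E} (hF : Equi π F)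
    (hH : Harm nb F) (hT : TimeRev Γ nb o) (n : ℕ) (t : ℝ) :
    Wk nb (n + 1) (fun p => (‖F p - F o‖ ^ 2 - (t + 1) * sg nb F o) ^ 2) o ≤
      Wk nb n (fun p => (‖F p - F o‖ ^ 2 - t * sg nb F o) ^ 2) o +
        (CV nb F o + rV nb F o n) := by
  have h : av nb (fun p => (‖F p - F o‖ ^ 2 - (t + 1) * sg nb F o) ^ 2) = fun p =>
      (‖F p - F o‖ ^ 2 - t * sg nb F o) ^ 2 +
        av nb (fun z => (‖F z - F p‖ ^ 2 - sg nb F o +
          2 * inner ℝ (F p - F o) (F z - F p)) ^ 2) p := by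
    funext p
    have h0 : ∑ z ∈ nb p, (‖F z - F p‖ ^ 2 - sg nb F o +
        2 * inner ℝ (F p - F o) (F z - F p)) = 0 := by
      rw [Finset.sum_add_distrib, ← Finset.mul_sum, harm_inner' hH, mul_zero, add_zero,
        Finset.sum_sub_distrib, Finset.sum_const, nsmul_eq_mul, ← sg_eq hV hF p, sg, av,
        mul_inv_cancel_left₀ (card_pos hV p).ne', sub_self]
    rw [← av_var hV.self p _ _ h0]
    congr 1
    funext z
    have h1 : F z - F o = (F p - F o) + (F z - F p) := (sub_add_sub_cancel' _ _ _).symm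
    rw [h1, norm_add_sq_real]
    ring
  rw [Wk_succ, h, Wk_add]
  refine add_le_add le_rfl ?_
  have h1 : ∀ p : V, av nb (fun z => (‖F z - F p‖ ^ 2 - sg nb F o +
          2 * inner ℝ (F p - F o) (F z - F p)) ^ 2) p ≤ CV nb F o + 8 * crV nb F o p := by
    intro p
    rw [← CV_eq hV hF p]
    unfold CV crV
    have h3 := congrFun (av_smul (nb := nb) 8
      (fun z => (inner ℝ (F p - F o) (F z - F p)) ^ 2)) p
    have h4 := congrFun (av_add (nb := nb) (fun z => 2 * (‖F z - F p‖ ^ 2 - sg nb F p) ^ 2)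
      (fun z => 8 * (inner ℝ (F p - F o) (F z - F p)) ^ 2)) p
    rw [← h3, ← h4]
    refine av_mono (fun z => ?_) p
    rw [sg_eq hV hF p]
    nlinarith [sq_nonneg (‖F z - F p‖ ^ 2 - sg nb F o - 2 * inner ℝ (F p - F o) (F z - F p))]
  refine (Wk_mono n h1 o).trans (le_of_eq ?_)
  rw [Wk_add, Wk_const hV.self, Wk_smul, Wk_crV hV hF hT]

theorem MV_le (hV : VG Γ nb o) {π : Γ →* (E ≃ₗᵢ[ℝ] E)} {F : V → E} (hF : Equi π F)
    (hH : Harm nb F) (hT : TimeRev Γ nb o) (n : ℕ) :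
    Wk nb n (fun p => (‖F p - F o‖ ^ 2 - n * sg nb F o) ^ 2) o ≤
      n * (CV nb F o + rV nb F o n) := by
  induction n with
  | zero =>
    rw [Wk_zero]
    simp
  | succ n ih =>
    have h1 := MV_succ hV hF hH hT n n
    have h2 := rV_mono hV hH n
    have h3 : (0 : ℝ) ≤ n := Nat.cast_nonneg n
    push_cast
    nlinarith

theorem const_of_sg {π : Γ →* (E ≃ₗᵢ[ℝ] E)} {F : V → E} (hV : VG Γ nb o) (hF : Equi π F)
    (hs : sg nb F o = 0) : ∀ x, F x = F o := by
  have h1 : ∀ p, ∀ z ∈ nb p, F z = F p := by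
    intro p z hz
    have h2 : sg nb F p = 0 := by rw [sg_eq hV hF p, hs]
    unfold sg av at h2
    rcases mul_eq_zero.mp h2 with h | h
    · exact absurd h (inv_ne_zero (card_pos hV p).ne')
    · have h3 := (Finset.sum_eq_zero_iff_of_nonneg fun s _ => sq_nonneg _).mp h z hz
      have h4 : ‖F z - F p‖ = 0 := pow_eq_zero_iff (two_ne_zero) |>.mp h3
      exact sub_eq_zero.mp (norm_eq_zero.mp h4)
  intro x
  have h := hV.conn x
  induction h with
  | refl => rfl
  | tail _ hab ih => rw [h1 _ _ hab, ih]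

theorem harmonic_const [CompleteSpace E] (hV : VG Γ nb o) (hT : TimeRev Γ nb o)
    (Near : ℕ → V → Prop) [∀ r p, Decidable (Near r p)] (hc : CautV nb o Near)
    {π : Γ →* (E ≃ₗᵢ[ℝ] E)} {F : V → E} (hF : Equi π F) (hH : Harm nb F)
    {L : ℝ} (hN : ∀ r p, Near r p → ‖F p - F o‖ ≤ L * r) (hu : FPerp π F) :
    ∀ x, F x = F o := by
  -- we may assume `L` nonnegative
  set L' : ℝ := |L| with hL'
  have hL0 : 0 ≤ L' := abs_nonneg L
  have hN' : ∀ r p, Near r p → ‖F p - F o‖ ≤ L' * r := fun r p h =>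
    (hN r p h).trans (mul_le_mul_of_nonneg_right (le_abs_self L) (Nat.cast_nonneg r))
  refine const_of_sg hV hF ?_
  by_contra hne
  have hsig : 0 < sg nb F o := lt_of_le_of_ne (sg_nonneg F o) (Ne.symm hne)
  set σ : ℝ := sg nb F o with hσ
  set c : ℝ := Real.sqrt (σ / 2) / (L' + 1) with hcdef
  have hc0 : 0 < c := by positivity
  have hLc : L' ^ 2 * c ^ 2 ≤ σ / 2 := by
    have h1 : L' * c ≤ Real.sqrt (σ / 2) := by
      rw [hcdef, mul_div_assoc', div_le_iff₀ (by positivity)]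
      nlinarith [Real.sqrt_nonneg (σ / 2)]
    have h2 : (L' * c) ^ 2 ≤ Real.sqrt (σ / 2) ^ 2 :=
      pow_le_pow_left₀ (by positivity) h1 2
    rw [Real.sq_sqrt (by positivity), mul_pow] at h2
    exact h2
  obtain ⟨δ, hδ, hfreq⟩ := hc c hc0
  -- the bound for the probability
  have hbound : ∀ (n : ℕ) (r : ℕ), (r : ℝ) ≤ c * Real.sqrt n → 0 < n →
      Wk nb n (fun p => if Near r p then 1 else 0) o ≤
        4 / σ ^ 2 * ((n : ℝ)⁻¹ * CV nb F o + (n : ℝ)⁻¹ * rV nb F o n) := by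
    intro n r hr hn
    have hn' : (0 : ℝ) < n := by exact_mod_cast hn
    have ha : 0 < (n * σ / 2) ^ 2 := by positivity
    have h1 : Wk nb n (fun p => if Near r p then 1 else 0) o ≤
        Wk nb n (fun p => if (n * σ / 2) ^ 2 ≤
          (‖F p - F o‖ ^ 2 - n * σ) ^ 2 then 1 else 0) o := by
      refine Wk_mono n (fun p => ?_) o
      by_cases hg : Near r p
      · have h2 : ‖F p - F o‖ ≤ L' * (c * Real.sqrt n) :=
          (hN' r p hg).trans (mul_le_mul_of_nonneg_left hr hL0)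
        have h3 : ‖F p - F o‖ ^ 2 ≤ n * σ / 2 := by
          calc ‖F p - F o‖ ^ 2 ≤ (L' * (c * Real.sqrt n)) ^ 2 :=
                pow_le_pow_left₀ (norm_nonneg _) h2 2
            _ = L' ^ 2 * c ^ 2 * Real.sqrt n ^ 2 := by ring
            _ = L' ^ 2 * c ^ 2 * n := by rw [Real.sq_sqrt hn'.le]
            _ ≤ σ / 2 * n := mul_le_mul_of_nonneg_right hLc hn'.le
            _ = n * σ / 2 := by ring
        have h4 : (n * σ / 2) ^ 2 ≤ (‖F p - F o‖ ^ 2 - n * σ) ^ 2 := by
          have h5 : 0 ≤ n * σ / 2 := by positivity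
          nlinarith [sq_nonneg ‖F p - F o‖]
        rw [if_pos hg, if_pos h4]
      · rw [if_neg hg]
        split_ifs <;> norm_num
    refine h1.trans ((Wk_markov n (fun p => sq_nonneg _) ha o).trans ?_)
    refine (mul_le_mul_of_nonneg_left (MV_le hV hF hH hT n) (by positivity)).trans
      (le_of_eq ?_)
    field_simp
    ring
  have hlim : Tendsto (fun n : ℕ =>
      4 / σ ^ 2 * ((n : ℝ)⁻¹ * CV nb F o + (n : ℝ)⁻¹ * rV nb F o n)) atTop (𝓝 0) := by
    have h1 : Tendsto (fun n : ℕ => (n : ℝ)⁻¹ * CV nb F o) atTop (𝓝 0) := by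
      have := (tendsto_inv_atTop_nhds_zero_nat (𝕜 := ℝ)).mul_const (CV nb F o)
      simpa using this
    have h2 := ((h1.add (rV_lim hV hF hH hu)).const_mul (4 / σ ^ 2))
    simpa using h2
  have hev : ∀ᶠ n : ℕ in atTop,
      4 / σ ^ 2 * ((n : ℝ)⁻¹ * CV nb F o + (n : ℝ)⁻¹ * rV nb F o n) < δ :=
    hlim.eventually (gt_mem_nhds hδ)
  obtain ⟨n, ⟨r, hr, hn1⟩, hn2, hn3⟩ :=
    (hfreq.and_eventually (hev.and (eventually_gt_atTop 0))).exists
  exact absurd (hn1.trans (hbound n r hr hn3)) (not_le.mpr hn2)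

end Vale.Agent.P151.H982
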