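import Vale.Agent.P151.H982.VEO
import Vale.Agent.P188.SG.FD

/-!
P151 (B), step W3: from a nonconstant harmonic equivariant map on the vertices of a transitive
graph with a cautious walk to a finite-dimensional one.
-/

universe u v w

open Filter Topology

namespace Vale.Agent.P151.H982

open Vale.Agent.P188.SG

variable {Γ : Type u} [Group Γ] {V : Type v} [MulAction Γ V] {nb : V → Finset V} {o : V}
variable {E : Type w} [NormedAddCommGroup E] [InnerProductSpace ℝ E]

/-- An equivariant map which is nonconstant moves some neighbour of the base point. -/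
theorem exists_nb_ne (hV : VG Γ nb o) {π : Γ →* (E ≃ₗᵢ[ℝ] E)} {F : V → E} (hF : Equi π F)
    (hne : ∃ x y, F x ≠ F y) : ∃ x ∈ nb o, F x ≠ F o := by
  by_contra hcon
  push Not at hcon
  have h1 : sg nb F o = 0 := by
    unfold sg av
    rw [Finset.sum_eq_zero, mul_zero]
    intro z hz
    rw [hcon z hz, sub_self, norm_zero]
    norm_num
  have h2 := const_of_sg hV hF h1
  obtain ⟨x, y, hxy⟩ := hne
  exact hxy ((h2 x).trans (h2 y).symm)

/-- The restriction of an orthogonal representation to an invariant subspace. -/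
noncomputable def resRep (π : Γ →* (E ≃ₗᵢ[ℝ] E)) (W : Submodule ℝ E) (hWi : Inv π W) :
    Γ →* (W ≃ₗᵢ[ℝ] W) :=
  { toFun := fun g =>
      { toLinearEquiv := LinearEquiv.ofLinearMap
          ((π g).toLinearEquiv.toLinearMap.restrict (hWi g))
          ((π g⁻¹).toLinearEquiv.toLinearMap.restrict (hWi g⁻¹))
          (LinearMap.ext fun x => Subtype.ext (by
            show (π g * π g⁻¹) (x : E) = x
            rw [← map_mul, mul_inv_cancel, map_one]
            rfl))
          (LinearMap.ext fun x => Subtype.ext (by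
            show (π g⁻¹ * π g) (x : E) = x
            rw [← map_mul, inv_mul_cancel, map_one]
            rfl))
        norm_map' := fun x => (π g).norm_map (x : E) }
    map_one' := by
      refine LinearIsometryEquiv.ext fun x => Subtype.ext ?_
      show π 1 (x : E) = x
      rw [map_one]; rfl
    map_mul' := fun g h => by
      refine LinearIsometryEquiv.ext fun x => Subtype.ext ?_
      show π (g * h) (x : E) = π g (π h (x : E))
      rw [map_mul]; rfl }

theorem resRep_coe (π : Γ →* (E ≃ₗᵢ[ℝ] E)) (W : Submodule ℝ E) (hWi : Inv π W) (g : Γ) (x : W) :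
    ((resRep π W hWi g x : W) : E) = π g (x : E) := rfl

/-- From a nonconstant harmonic equivariant map (of the vertices to a Hilbert space) to a
finite-dimensional one. -/
theorem exists_fd_harmonic_V [CompleteSpace E] (hV : VG Γ nb o) (hT : TimeRev Γ nb o)
    (Near : ℕ → V → Prop) [∀ r p, Decidable (Near r p)] (hc : CautV nb o Near)
    {π : Γ →* (E ≃ₗᵢ[ℝ] E)} {F : V → E} (hF : Equi π F) (hH : Harm nb F)
    {L : ℝ} (hN : ∀ r p, Near r p → ‖F p - F o‖ ≤ L * r) (hne : ∃ x y, F x ≠ F y) :
    ∃ (W : Type w) (_ : NormedAddCommGroup W) (_ : InnerProductSpace ℝ W)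
      (_ : FiniteDimensional ℝ W) (σ : Γ →* (W ≃ₗᵢ[ℝ] W)) (c : V → W),
      Equi σ c ∧ Harm nb c ∧ c o = 0 ∧ ∃ x ∈ nb o, c x ≠ 0 := by
  have h1 : ¬ FPerp π F := by
    intro hu
    obtain ⟨x, y, hxy⟩ := hne
    have h2 := harmonic_const hV hT Near hc hF hH hN hu
    exact hxy ((h2 x).trans (h2 y).symm)
  unfold FPerp at h1
  push Not at h1
  obtain ⟨W, hWf, hWi, w, hw, x, y, hin⟩ := h1
  have hpc : ∀ g v, W.starProjection (π g v) = π g (W.starProjection v) :=
    fun g v => fd_proj_comm π W hWi g v
  let c : V → W := fun p => ⟨W.starProjection (F p - F o), W.starProjection_apply_mem _⟩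
  have hcs : ∀ p q, ((c p - c q : W) : E) = W.starProjection (F p - F q) := by
    intro p q
    show W.starProjection (F p - F o) - W.starProjection (F q - F o) = _
    rw [← map_sub, sub_sub_sub_cancel_right]
  have hEc : Equi (resRep π W hWi) c := by
    intro g p q
    refine Subtype.ext ?_
    rw [resRep_coe, hcs, hcs, hF, hpc]
  have hco : c o = 0 := by
    refine Subtype.ext ?_
    show W.starProjection (F o - F o) = 0
    rw [sub_self, map_zero]
  have hcxy : ∃ p q, c p ≠ c q := by
    refine ⟨x, y, fun h0 => hin ?_⟩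
    have h3 : W.starProjection (F x - F y) = 0 := by
      rw [← hcs, h0, sub_self]
      rfl
    rw [real_inner_comm, ← Submodule.starProjection_inner_eq_zero (K := W) (F x - F y) w hw, h3,
      sub_zero]
  obtain ⟨z, hz, hcz⟩ := exists_nb_ne hV hEc hcxy
  refine ⟨W, inferInstance, inferInstance, hWf, resRep π W hWi, c, hEc, fun p => ?_, hco, z, hz,
    ?_⟩
  · refine Subtype.ext ?_
    rw [Submodule.coe_sum]
    simp only [hcs]
    rw [← map_sum, hH, map_zero]
    rfl
  · rwa [hco] at hcz

end Vale.Agent.P151.H982
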