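import Vale.Agent.P188.SG.Trace

/-!
P151 (B), step W3: random walk on the vertices of a transitive graph, given by the raw data of
the neighbourhoods `nb : V → Finset V`.
-/

universe u v w

open Filter Topology

namespace Vale.Agent.P151.H982

/-- A locally finite connected graph (with loops at every vertex), with a vertex-transitive
group of automorphisms. -/
structure VG (Γ : Type u) [Group Γ] {V : Type v} [MulAction Γ V] (nb : V → Finset V) (o : V) :
    Prop where
  self : ∀ x, x ∈ nb x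
  symm : ∀ x y, y ∈ nb x → x ∈ nb y
  equiv : ∀ (g : Γ) (x y : V), y ∈ nb x → g • y ∈ nb (g • x)
  trans : ∀ x, ∃ g : Γ, g • o = x
  conn : ∀ x, Relation.ReflTransGen (fun a b => b ∈ nb a) o x

variable {V : Type v} {nb : V → Finset V} {o : V}

/-- Average of `f` over the neighbours of `x`. -/
noncomputable def av (nb : V → Finset V) (f : V → ℝ) (x : V) : ℝ :=
  ((nb x).card : ℝ)⁻¹ * ∑ y ∈ nb x, f y

/-- Expectation of `f (X_n)` for the random walk started at `x`. -/
noncomputable def Wk (nb : V → Finset V) (n : ℕ) (f : V → ℝ) (x : V) : ℝ := ((av nb)^[n] f) x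

theorem Wk_zero (f : V → ℝ) (x : V) : Wk nb 0 f x = f x := rfl

theorem Wk_succ (n : ℕ) (f : V → ℝ) (x : V) : Wk nb (n + 1) f x = Wk nb n (av nb f) x := rfl

theorem Wk_succ' (n : ℕ) (f : V → ℝ) (x : V) : Wk nb (n + 1) f x = av nb (Wk nb n f) x := by
  unfold Wk
  rw [Function.iterate_succ_apply']

theorem av_add (f g : V → ℝ) : av nb (fun x => f x + g x) = fun x => av nb f x + av nb g x := by
  funext x
  unfold av
  rw [Finset.sum_add_distrib, mul_add]

theorem av_smul (a : ℝ) (f : V → ℝ) : av nb (fun x => a * f x) = fun x => a * av nb f x := by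
  funext x
  unfold av
  rw [← Finset.mul_sum]
  ring

theorem av_mono {f g : V → ℝ} (h : ∀ x, f x ≤ g x) (x : V) : av nb f x ≤ av nb g x := by
  unfold av
  exact mul_le_mul_of_nonneg_left (Finset.sum_le_sum fun s _ => h _) (by positivity)

theorem av_nonneg {f : V → ℝ} (h : ∀ x, 0 ≤ f x) (x : V) : 0 ≤ av nb f x := by
  unfold av
  exact mul_nonneg (by positivity) (Finset.sum_nonneg fun s _ => h _)

theorem Wk_add (n : ℕ) (f g : V → ℝ) (x : V) :
    Wk nb n (fun y => f y + g y) x = Wk nb n f x + Wk nb n g x := by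
  induction n generalizing f g with
  | zero => rfl
  | succ n ih => rw [Wk_succ, Wk_succ, Wk_succ, av_add, ih]

theorem Wk_smul (n : ℕ) (a : ℝ) (f : V → ℝ) (x : V) :
    Wk nb n (fun y => a * f y) x = a * Wk nb n f x := by
  induction n generalizing f with
  | zero => rfl
  | succ n ih => rw [Wk_succ, Wk_succ, av_smul, ih]

theorem Wk_null (n : ℕ) (x : V) : Wk nb n (fun _ => (0 : ℝ)) x = 0 := by
  have h := Wk_smul (nb := nb) n 0 (fun _ => (0 : ℝ)) x
  simpa using h

theorem Wk_sum {ι : Type*} (t : Finset ι) (n : ℕ) (f : ι → V → ℝ) (x : V) :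
    Wk nb n (fun y => ∑ i ∈ t, f i y) x = ∑ i ∈ t, Wk nb n (f i) x := by
  classical
  induction t using Finset.induction_on with
  | empty =>
    simp only [Finset.sum_empty]
    exact Wk_null n x
  | insert i t hi ih =>
    simp only [Finset.sum_insert hi]
    rw [Wk_add, ih]

theorem av_const (hS : ∀ x, x ∈ nb x) (a : ℝ) : av nb (fun _ => a) = fun _ => a := by
  funext x
  have hc : ((nb x).card : ℝ) ≠ 0 := by
    have := Finset.card_pos.mpr ⟨x, hS x⟩
    positivity
  unfold av
  rw [Finset.sum_const, nsmul_eq_mul, ← mul_assoc, inv_mul_cancel₀ hc, one_mul]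

theorem Wk_const (hS : ∀ x, x ∈ nb x) (n : ℕ) (a : ℝ) (x : V) : Wk nb n (fun _ => a) x = a := by
  induction n with
  | zero => rfl
  | succ n ih => rw [Wk_succ, av_const hS, ih]

theorem Wk_mono (n : ℕ) {f g : V → ℝ} (h : ∀ y, f y ≤ g y) (x : V) :
    Wk nb n f x ≤ Wk nb n g x := by
  induction n generalizing f g with
  | zero => exact h x
  | succ n ih =>
    rw [Wk_succ, Wk_succ]
    exact ih (av_mono h)

theorem Wk_nonneg (n : ℕ) {f : V → ℝ} (h : ∀ y, 0 ≤ f y) (x : V) : 0 ≤ Wk nb n f x := by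
  have h1 := Wk_mono (nb := nb) n (f := fun _ => (0 : ℝ)) (g := f) h x
  rwa [Wk_null] at h1

theorem Wk_abs_le (hS : ∀ x, x ∈ nb x) (n : ℕ) {f : V → ℝ} {M : ℝ} (h : ∀ y, |f y| ≤ M) (x : V) :
    |Wk nb n f x| ≤ M := by
  rw [abs_le]
  have h1 := Wk_mono (nb := nb) n (f := f) (g := fun _ => M) (fun y => (abs_le.mp (h y)).2) x
  have h2 := Wk_mono (nb := nb) n (f := fun _ => -M) (g := f) (fun y => (abs_le.mp (h y)).1) x
  rw [Wk_const hS] at h1 h2
  exact ⟨h2, h1⟩

theorem Wk_markov (n : ℕ) {f : V → ℝ} (h : ∀ y, 0 ≤ f y) {a : ℝ} (ha : 0 < a) (x : V) :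
    Wk nb n (fun y => if a ≤ f y then 1 else 0) x ≤ a⁻¹ * Wk nb n f x := by
  rw [← Wk_smul]
  refine Wk_mono n (fun y => ?_) x
  by_cases hg : a ≤ f y
  · rw [if_pos hg, inv_mul_eq_div, one_le_div ha]
    exact hg
  · rw [if_neg hg]
    exact mul_nonneg (inv_nonneg.mpr ha.le) (h y)

section Act

variable {Γ : Type u} [Group Γ] [MulAction Γ V]

theorem nb_smul (hV : VG Γ nb o) (g : Γ) (x y : V) : g • y ∈ nb (g • x) ↔ y ∈ nb x := by
  refine ⟨fun h => ?_, hV.equiv g x y⟩
  have := hV.equiv g⁻¹ _ _ h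
  rwa [inv_smul_smul, inv_smul_smul] at this

theorem sum_nb_smul (hV : VG Γ nb o) (g : Γ) (x : V) (f : V → ℝ) :
    ∑ y ∈ nb (g • x), f y = ∑ y ∈ nb x, f (g • y) := by
  refine Finset.sum_nbij' (fun y => g⁻¹ • y) (fun y => g • y) (fun y hy => ?_) (fun y hy => ?_)
    (fun y _ => smul_inv_smul g y) (fun y _ => inv_smul_smul g y) (fun y _ => ?_)
  · rw [← nb_smul hV g, smul_inv_smul]
    exact hy
  · exact hV.equiv g x y hy
  · rw [smul_inv_smul]

theorem card_nb_smul (hV : VG Γ nb o) (g : Γ) (x : V) : (nb (g • x)).card = (nb x).card := by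
  have h := sum_nb_smul hV g x (fun _ => 1)
  simp only [Finset.sum_const, nsmul_eq_mul, mul_one] at h
  exact_mod_cast h

theorem card_nb (hV : VG Γ nb o) (x : V) : (nb x).card = (nb o).card := by
  obtain ⟨g, rfl⟩ := hV.trans x
  exact card_nb_smul hV g o

theorem card_pos (hV : VG Γ nb o) (x : V) : (0 : ℝ) < (nb x).card := by
  exact_mod_cast Finset.card_pos.mpr ⟨x, hV.self x⟩

theorem av_smul_act (hV : VG Γ nb o) (g : Γ) (f : V → ℝ) (x : V) :
    av nb (fun y => f (g • y)) x = av nb f (g • x) := by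
  unfold av
  rw [sum_nb_smul hV, card_nb_smul hV]

theorem Wk_act (hV : VG Γ nb o) (g : Γ) (n : ℕ) (f : V → ℝ) (x : V) :
    Wk nb n (fun y => f (g • y)) x = Wk nb n f (g • x) := by
  induction n generalizing f with
  | zero => rfl
  | succ n ih =>
    rw [Wk_succ, Wk_succ, ← ih (av nb f)]
    congr 1
    funext y
    exact av_smul_act hV g f y

/-- The subgroup generated by the elements moving `o` to a neighbour is everything. -/
theorem gen_nb (hV : VG Γ nb o) : Subgroup.closure {g : Γ | g • o ∈ nb o} = ⊤ := by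
  rw [eq_top_iff]
  have key : ∀ x, Relation.ReflTransGen (fun a b => b ∈ nb a) o x → ∀ g : Γ, g • o = x →
      g ∈ Subgroup.closure {g : Γ | g • o ∈ nb o} := by
    intro x hx
    induction hx with
    | refl =>
      intro g hg
      refine Subgroup.subset_closure ?_
      show g • o ∈ nb o
      rw [hg]
      exact hV.self o
    | tail _ hab ih =>
      rename_i a b _
      intro g hg
      obtain ⟨k, hk⟩ := hV.trans a
      have h1 := ih k hk
      have h2 : k⁻¹ * g ∈ Subgroup.closure {g : Γ | g • o ∈ nb o} := by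
        refine Subgroup.subset_closure ?_
        show (k⁻¹ * g) • o ∈ nb o
        rw [mul_smul, hg, ← nb_smul hV k, smul_inv_smul, hk]
        exact hab
      have h3 := Subgroup.mul_mem _ h1 h2
      rwa [mul_inv_cancel_left] at h3
  intro g _
  exact key _ (hV.conn (g • o)) g rfl

end Act

end Vale.Agent.P151.H982
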